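import Vale.Agent.P113.Final2
import Vale.Agent.P113B.Flow

open Set

namespace Vale.Agent.Results.P113.HaltingFlow

open Vale.Agent.P113

/-- There are a rational point `a`, an open box with rational corners `lo`, `hi` (of side lengths
less than one) and an algorithm `C` such that, for every viscosity `ν > 0`, `C` is a force compiler
and, for every machine `M` and every input `w`, the force `f` given by the lists `C (M, w)` is
smooth, and the forced Navier-Stokes system on the torus starting from rest has a global smooth
solution `(u, p)`, which is unique among the classical solutions on each `[0, T]`, and whose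
trajectory `X` from `a` (which exists and is unique) lies at some time `t ≥ 0` in the image of the
box in the torus if and only if `M` halts on `w`. -/
theorem result :
    ∃ (a lo hi : Fin 3 → ℚ) (C : Machine × List ℕ → Fin 3 → List Term),
      (∀ i, lo i < hi i ∧ hi i < lo i + 1) ∧
      ∀ ν : ℝ, 0 < ν → IsCompiler ν C ∧ ∀ (M : Machine) (w : List ℕ),
        (∀ i, SmoothOn (force ν (C (M, w)) i)) ∧
        ∃ (u : Fin 3 → ℝ → (Fin 3 → ℝ) → ℝ) (p : ℝ → (Fin 3 → ℝ) → ℝ),
          (∀ i, SmoothOn (u i)) ∧ SmoothOn p ∧
          (∀ T, 0 < T → IsClassical ν (force ν (C (M, w))) T u p) ∧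
          (∀ T, 0 < T → ∀ v q, IsClassical ν (force ν (C (M, w))) T v q →
            ∀ t ∈ Icc 0 T, ∀ x, (∀ i, v i t x = u i t x) ∧ q t x = p t x) ∧
          ∃ X, IsTrajectory u (fun i => a i) X ∧
            (∀ Y, IsTrajectory u (fun i => a i) Y → ∀ t, 0 ≤ t → Y t = X t) ∧
            ((∃ t, 0 ≤ t ∧ toTorus (X t) ∈ boxImage lo hi) ↔ M.Halts w) :=
  final2_of fun rules halts hG => ⟨Flow.UU rules halts, Flow.adm_UU hG, Flow.div_UU hG,
    fun i t ht x => Flow.UU_idle 0 (by simpa [Vale.Agent.P113E.slot] using ht) i x,
    _, _, Flow.drives hG⟩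

end Vale.Agent.Results.P113.HaltingFlow
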